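import Mathlib

/- A line of thresholds with heights, jobs with needs, fractional and integral placements. -/

namespace Vale.Agent.P302

open Finset

structure Pc where
  q : ℕ
  lo : ℕ
  hi : ℕ
  w : ℚ

def len (h : ℕ → ℚ) (lo hi : ℕ) : ℚ := ∑ k ∈ Icc lo hi, h k

def tot (f : Pc → ℚ) : Multiset Pc →+ ℚ :=
  Multiset.sumAddMonoidHom.comp (Multiset.mapAddMonoidHom f)

lemma tot_apply (f : Pc → ℚ) (W : Multiset Pc) : tot f W = (W.map f).sum := rfl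

lemma tot_single (f : Pc → ℚ) (p : Pc) : tot f {p} = f p := by simp [tot_apply]

lemma tot_zero_of (f : Pc → ℚ) (W : Multiset Pc) (h : ∀ p ∈ W, f p = 0) : tot f W = 0 := by
  rw [tot_apply]
  apply Multiset.sum_eq_zero
  intro x hx
  obtain ⟨p, hp, rfl⟩ := Multiset.mem_map.1 hx
  exact h p hp

def wq (q : ℕ) (p : Pc) : ℚ := if p.q = q then p.w else 0

def ld (θ : ℕ) (p : Pc) : ℚ := if p.lo ≤ θ ∧ θ ≤ p.hi then p.w else 0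

def Frac (a b : ℕ) (h η : ℕ → ℚ) (L : ℚ) : Prop :=
  ∃ W : Multiset Pc,
    (∀ p ∈ W, a ≤ p.q ∧ p.q < b ∧ a ≤ p.lo ∧ p.lo ≤ p.hi ∧ p.hi < b ∧ 0 ≤ p.w ∧
      η p.q ≤ len h p.lo p.hi) ∧
    (∀ q, a ≤ q → q < b → η q = 0 ∨ tot (wq q) W = 1) ∧
    (∀ θ, tot (ld θ) W ≤ L)

def Intg (a b : ℕ) (h η : ℕ → ℚ) (J d : ℕ) : Prop :=
  ∀ (lo hi : ℕ → ℕ) (P : Finset ℕ), P ⊆ (Ico a b).filter (fun q => η q ≠ 0) →
    ((Ico a b).filter (fun q => η q ≠ 0) \ P).card ≤ J →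
    (∀ q ∈ P, a ≤ lo q ∧ hi q < b ∧ η q ≤ len h (lo q) (hi q)) →
    ∃ θ, a ≤ θ ∧ θ < b ∧ d ≤ (P.filter fun q => lo q ≤ θ ∧ θ ≤ hi q).card

structure Good (ρ : ℚ) (d a b : ℕ) (h η : ℕ → ℚ) (J : ℕ) (δ : ℚ) : Prop where
  lt : a < b
  hpos : ∀ k, a ≤ k → k < b → 0 < h k
  ηnn : ∀ k, a ≤ k → k < b → 0 ≤ η k
  ηlt : ∀ k, a ≤ k → k < b → η k < δ
  total : ∑ k ∈ Ico a b, h k < δ
  neutral : ∃ k, a ≤ k ∧ k < b ∧ η k = 0
  frac : Frac a b h η (2 * d * ρ)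
  intg : Intg a b h η J d

def All (ρ : ℚ) (d : ℕ) : Prop :=
  ∀ (a J : ℕ) (δ : ℚ), 0 < δ → ∃ b h η, Good ρ d a b h η J δ

lemma all_zero (ρ : ℚ) : All ρ 0 := by
  intro a J δ hδ
  refine ⟨a + 1, fun _ => δ / 2, fun _ => 0, ?_⟩
  refine ⟨by omega, fun _ _ _ => by positivity, fun _ _ _ => le_rfl, fun _ _ _ => hδ, ?_,
    ⟨a, le_rfl, by omega, rfl⟩, ⟨0, by simp, fun _ _ _ => Or.inl rfl, fun θ => by simp⟩, ?_⟩
  · simp; linarith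
  · intro lo hi P _ _ _
    exact ⟨a, le_rfl, by omega, Nat.zero_le _⟩

lemma exists_min_pos (a b : ℕ) (η : ℕ → ℚ) (hη : ∀ k, a ≤ k → k < b → 0 ≤ η k) (δ : ℚ)
    (hδ : 0 < δ) : ∃ μ, 0 < μ ∧ μ ≤ δ ∧ ∀ q, a ≤ q → q < b → η q ≠ 0 → μ ≤ η q := by
  induction b with
  | zero => exact ⟨δ, hδ, le_rfl, fun q _ h => absurd h (by omega)⟩
  | succ b ih =>
    obtain ⟨μ, h1, h2, h3⟩ := ih (fun k hk hk' => hη k hk (by omega))
    by_cases hb : a ≤ b ∧ η b ≠ 0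
    · have : 0 < η b := lt_of_le_of_ne (hη b hb.1 (by omega)) (Ne.symm hb.2)
      refine ⟨min μ (η b), lt_min h1 this, (min_le_left _ _).trans h2, fun q hq hq' hq'' => ?_⟩
      rcases Nat.lt_succ_iff_lt_or_eq.1 hq' with h | rfl
      · exact (min_le_left _ _).trans (h3 q hq h hq'')
      · exact min_le_right _ _
    · refine ⟨μ, h1, h2, fun q hq hq' hq'' => ?_⟩
      rcases Nat.lt_succ_iff_lt_or_eq.1 hq' with h | rfl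
      · exact h3 q hq h hq''
      · exact absurd ⟨hq, hq''⟩ hb

lemma cells (ρ : ℚ) (d : ℕ) (H : All ρ d) (a J0 : ℕ) (δ0 : ℚ) (hδ0 : 0 < δ0) :
    ∃ (s : ℕ → ℕ) (hs ηs : ℕ → ℕ → ℚ) (δs : ℕ → ℚ), s 0 = a ∧
      (∀ i, δs i ≤ δ0) ∧
      (∀ i, Good ρ d (s i + 1) (s (i + 1)) (hs i) (ηs i) (J0 + d * (s i - a)) (δs i)) ∧
      (∀ i i', i' < i → ∀ q, s i' + 1 ≤ q → q < s (i' + 1) → ηs i' q ≠ 0 → δs i ≤ ηs i' q) := by
  have key : ∀ st : ℕ × {x : ℚ // 0 < x}, ∃ (st' : ℕ × {x : ℚ // 0 < x}) (h η : ℕ → ℚ),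
      Good ρ d (st.1 + 1) st'.1 h η (J0 + d * (st.1 - a)) st.2.1 ∧ st'.2.1 ≤ st.2.1 ∧
      ∀ q, st.1 + 1 ≤ q → q < st'.1 → η q ≠ 0 → st'.2.1 ≤ η q := by
    intro st
    obtain ⟨b, h, η, G⟩ := H (st.1 + 1) (J0 + d * (st.1 - a)) st.2.1 st.2.2
    obtain ⟨μ, h1, h2, h3⟩ := exists_min_pos _ _ η G.ηnn st.2.1 st.2.2
    exact ⟨(b, ⟨μ, h1⟩), h, η, G, h2, h3⟩
  choose F hf ηf hF using key
  let st : ℕ → ℕ × {x : ℚ // 0 < x} := fun n => F^[n] (a, ⟨δ0, hδ0⟩)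
  have hst : ∀ n, st (n + 1) = F (st n) := fun n => Function.iterate_succ_apply' F n _
  have anti : Antitone fun n => (st n).2.1 := by
    apply antitone_nat_of_succ_le
    intro n
    show (st (n + 1)).2.1 ≤ (st n).2.1
    rw [hst]; exact (hF _).2.1
  refine ⟨fun n => (st n).1, fun n => hf (st n), fun n => ηf (st n), fun n => (st n).2.1, rfl,
    fun i => anti (Nat.zero_le i), fun i => ?_, fun i i' hi q h1 h2 h3 => ?_⟩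
  · show Good ρ d ((st i).1 + 1) (st (i + 1)).1 _ _ _ _
    rw [hst]; exact (hF _).1
  · have h4 : (st i).2.1 ≤ (st (i' + 1)).2.1 := anti hi
    refine h4.trans ?_
    have h2' : q < (st (i' + 1)).1 := h2
    rw [hst] at h2' ⊢
    exact (hF _).2.2 q h1 h2' h3

end Vale.Agent.P302
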