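import Vale.Agent.P302.Pack

namespace Vale.Agent.P302

open Finset

def ps (θ : ℕ) (p : Pc) : ℚ := if p.lo < θ ∧ θ ≤ p.hi then p.w else 0

lemma sum_ld (m : ℕ) (e : ℕ → ℚ) (p : Pc) (h : p.hi < m) :
    ∑ θ ∈ range m, e θ * ld θ p = (∑ θ ∈ Icc p.lo p.hi, e θ) * p.w := by
  simp only [ld, mul_ite, mul_zero]
  rw [← sum_filter, sum_mul]
  refine sum_congr ?_ fun _ _ => rfl
  ext x; simp only [mem_filter, mem_range, mem_Icc]; omega

lemma sum_ps (m : ℕ) (e : ℕ → ℚ) (p : Pc) (h : p.hi < m) :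
    ∑ θ ∈ Ico 1 m, e θ * ps θ p = (∑ θ ∈ Ioc p.lo p.hi, e θ) * p.w := by
  simp only [ps, mul_ite, mul_zero]
  rw [← sum_filter, sum_mul]
  refine sum_congr ?_ fun _ _ => rfl
  ext x; simp only [mem_filter, mem_Ico, mem_Ioc]; omega

lemma icc_lo (e : ℕ → ℚ) {lo hi : ℕ} (h : lo ≤ hi) :
    ∑ θ ∈ Icc lo hi, e θ = e lo + ∑ θ ∈ Ioc lo hi, e θ := by
  induction hi, h using Nat.le_induction with
  | base => simp
  | succ n hn ih => rw [sum_Icc_succ_top (by omega), sum_Ioc_succ_top hn, ih]; ring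

lemma icc_hi (e : ℕ → ℚ) {lo hi : ℕ} (h : lo ≤ hi) :
    ∑ θ ∈ Icc lo hi, e θ = e hi + ∑ θ ∈ Ioc lo hi, e (θ - 1) := by
  induction hi, h using Nat.le_induction with
  | base => simp
  | succ n hn ih =>
    rw [sum_Icc_succ_top (by omega), sum_Ioc_succ_top hn, ih, Nat.add_sub_cancel]; ring

lemma ident (m : ℕ) (ex ey ez : ℕ → ℚ) (e0 : ℚ) (W : Multiset Pc)
    (hW : ∀ p ∈ W, p.q < m ∧ p.lo ≤ p.hi ∧ p.hi < m) :
    tot (fun p => (ex p.lo + ey p.hi + ez p.q) * p.w) W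
      - ∑ θ ∈ range m, (ex θ + ey θ + e0) * tot (ld θ) W
      + ∑ θ ∈ Ico 1 m, (ex θ + ey (θ - 1) + e0) * tot (ps θ) W
      = ∑ q ∈ range m, (ez q - e0) * tot (wq q) W := by
  induction W using Multiset.induction_on with
  | empty => simp
  | cons p W ih =>
    have ih' := ih fun p' hp' => hW p' (Multiset.mem_cons_of_mem hp')
    obtain ⟨h1, h2, h3⟩ := hW p (Multiset.mem_cons_self _ _)
    simp only [← Multiset.singleton_add, map_add, tot_single, mul_add, sum_add_distrib]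
    have a1 := sum_ld m (fun θ => ex θ + ey θ + e0) p h3
    have a2 := sum_ps m (fun θ => ex θ + ey (θ - 1) + e0) p h3
    have a3 : ∑ q ∈ range m, (ez q - e0) * wq q p = (ez p.q - e0) * p.w := by
      rw [sum_eq_single_of_mem p.q (mem_range.2 h1)]
      · simp [wq]
      · intro b _ hb
        rw [wq, if_neg (Ne.symm hb), mul_zero]
    rw [a1, a2, a3, ← ih']
    simp only [sum_add_distrib]
    rw [icc_lo ex h2, icc_hi ey h2, icc_lo (fun _ => e0) h2]
    ring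

lemma exists_z (V : Multiset ((ℚ →₀ ℕ) × ℚ)) (Cf : (ℚ →₀ ℕ) → Prop)
    (hV : ∀ v ∈ V, 0 ≤ v.2 ∧ Cf v.1) :
    ∃ z : (ℚ →₀ ℕ) →₀ ℝ, (∀ c, 0 ≤ z c) ∧ (∀ c ∈ z.support, Cf c) ∧
      ∀ g : (ℚ →₀ ℕ) → ℚ, (z.sum fun c x => (g c : ℝ) * x) =
        (((V.map fun v => g v.1 * v.2).sum : ℚ) : ℝ) := by
  classical
  induction V using Multiset.induction_on with
  | empty => exact ⟨0, by simp, by simp, by simp⟩
  | cons v V ih =>
    obtain ⟨z, h1, h2, h3⟩ := ih fun p' hp' => hV p' (Multiset.mem_cons_of_mem hp')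
    obtain ⟨h4, h5⟩ := hV v (Multiset.mem_cons_self _ _)
    refine ⟨Finsupp.single v.1 (v.2 : ℝ) + z, fun c => ?_, fun c hc => ?_, fun g => ?_⟩
    · rw [Finsupp.add_apply, Finsupp.single_apply]
      have : (0 : ℝ) ≤ v.2 := by exact_mod_cast h4
      have := h1 c
      split_ifs <;> positivity
    · rcases mem_union.1 (Finsupp.support_add hc) with hc | hc
      · rw [mem_singleton.1 (Finsupp.support_single_subset hc)]; exact h5
      · exact h2 c hc
    · rw [Finsupp.sum_add_index' (by simp) (fun _ _ _ => by ring), h3,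
        Finsupp.sum_single_index (by simp), Multiset.map_cons, Multiset.sum_cons]
      push_cast; ring

noncomputable def cfg (u v w : ℚ) : ℚ →₀ ℕ :=
  Finsupp.single u 1 + Finsupp.single v 1 + Finsupp.single w 1

lemma cfg_apply (u v w σ : ℚ) : ((cfg u v w σ : ℕ) : ℚ) =
    (if u = σ then 1 else 0) + (if v = σ then 1 else 0) + (if w = σ then 1 else 0) := by
  simp only [cfg, Finsupp.add_apply, Finsupp.single_apply]
  push_cast; rfl

lemma cfg_sum (u v w : ℚ) : ((cfg u v w).sum fun σ k => σ * (k : ℚ)) = u + v + w := by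
  unfold cfg
  rw [Finsupp.sum_add_index' (by simp) (fun _ _ _ => by push_cast; ring),
    Finsupp.sum_add_index' (by simp) (fun _ _ _ => by push_cast; ring),
    Finsupp.sum_single_index (by simp), Finsupp.sum_single_index (by simp),
    Finsupp.sum_single_index (by simp)]
  simp

lemma cfg_supp (u v w σ : ℚ) (h : σ ∈ (cfg u v w).support) : σ = u ∨ σ = v ∨ σ = w := by
  by_contra hc
  push Not at hc
  rw [Finsupp.mem_support_iff] at h
  apply h
  have := cfg_apply u v w σ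
  rw [if_neg hc.1.symm, if_neg hc.2.1.symm, if_neg hc.2.2.symm] at this
  exact_mod_cast this

theorem lp_sol {ρ : ℚ} {d m J : ℕ} {h η : ℕ → ℚ} (G : Good ρ d 0 m h η J (1 / 100))
    (hL : 2 * d * ρ ≤ 1) :
    ∃ z : (ℚ →₀ ℕ) →₀ ℝ, (∀ c, 0 ≤ z c) ∧
      (∀ c ∈ z.support, (∀ σ ∈ c.support, ∃ p, p < m ∧ (σ = X h p ∨ σ = Y h p ∨ σ = Z η p)) ∧
        (c.sum fun σ k => σ * (k : ℚ)) ≤ 1) ∧
      (∀ σ : ℚ, (z.sum fun c x => (c σ : ℝ) * x) = ((∑ p ∈ range m,
        ((if X h p = σ then 1 else 0) + (if Y h p = σ then 1 else 0) +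
          (if Z η p = σ then 1 else 0)) : ℚ) : ℝ)) ∧
      (z.sum fun _ x => x) = m := by
  obtain ⟨W, h1, h2, h3⟩ := G.frac
  obtain ⟨k0, -, hk0, hk0'⟩ := G.neutral
  have hZ0 : Z η k0 = 7 / 26 := by simp [Z, hk0']
  let V : Multiset ((ℚ →₀ ℕ) × ℚ) :=
    W.map (fun p => (cfg (X h p.lo) (Y h p.hi) (Z η p.q), p.w)) +
    (range m).val.map (fun θ => (cfg (X h θ) (Y h θ) (Z η k0), 1 - tot (ld θ) W)) +
    (Ico 1 m).val.map (fun θ => (cfg (X h θ) (Y h (θ - 1)) (Z η k0), tot (ps θ) W))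
  have hcf : ∀ p1 p2 p3, p1 < m → p2 < m → p3 < m → X h p1 + Y h p2 + Z η p3 ≤ 1 →
      (∀ σ ∈ (cfg (X h p1) (Y h p2) (Z η p3)).support,
        ∃ p, p < m ∧ (σ = X h p ∨ σ = Y h p ∨ σ = Z η p)) ∧
      ((cfg (X h p1) (Y h p2) (Z η p3)).sum fun σ k => σ * (k : ℚ)) ≤ 1 := by
    intro p1 p2 p3 c1 c2 c3 c4
    refine ⟨fun σ hσ => ?_, by rw [cfg_sum]; exact c4⟩
    rcases cfg_supp _ _ _ _ hσ with e | e | e
    · exact ⟨p1, c1, Or.inl e⟩
    · exact ⟨p2, c2, Or.inr (Or.inl e)⟩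
    · exact ⟨p3, c3, Or.inr (Or.inr e)⟩
  obtain ⟨z, z1, z2, z3⟩ := exists_z V (fun c =>
      (∀ σ ∈ c.support, ∃ p, p < m ∧ (σ = X h p ∨ σ = Y h p ∨ σ = Z η p)) ∧
        (c.sum fun σ k => σ * (k : ℚ)) ≤ 1) (by
    intro v hv
    simp only [V, Multiset.mem_add, Multiset.mem_map, mem_val, mem_range, mem_Ico] at hv
    rcases hv with (⟨p, hp, rfl⟩ | ⟨θ, hθ, rfl⟩) | ⟨θ, hθ, rfl⟩
    · obtain ⟨-, c2, -, c4, c5, c6, c7⟩ := h1 p hp
      refine ⟨c6, hcf _ _ _ (by omega) c5 c2 ?_⟩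
      unfold len at c7
      rw [← Finset.Ico_add_one_right_eq_Icc, Finset.sum_Ico_eq_sub _ (by omega)] at c7
      unfold X Y Z
      linarith
    · refine ⟨by have := h3 θ; show 0 ≤ 1 - _; linarith, hcf _ _ _ hθ hθ hk0 ?_⟩
      rw [hZ0]
      unfold X Y
      rw [sum_range_succ]
      have := G.hpos θ (Nat.zero_le _) hθ
      linarith
    · refine ⟨?_, hcf _ _ _ hθ.2 (by omega) hk0 ?_⟩
      · show 0 ≤ tot (ps θ) W
        rw [tot_apply]
        refine Multiset.sum_nonneg fun x hx => ?_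
        obtain ⟨p, hp, rfl⟩ := Multiset.mem_map.1 hx
        have := (h1 p hp).2.2.2.2.2.1
        unfold ps
        split_ifs
        · exact this
        · exact le_rfl
      · rw [hZ0]
        unfold X Y
        rw [Nat.sub_add_cancel hθ.1]
        linarith)
  have key : ∀ (g : (ℚ →₀ ℕ) → ℚ) (ex ey ez : ℕ → ℚ),
      (∀ p1 p2 p3, g (cfg (X h p1) (Y h p2) (Z η p3)) = ex p1 + ey p2 + ez p3) →
      (∀ q, η q = 0 → ez q = ez k0) →
      (V.map fun v => g v.1 * v.2).sum = ∑ p ∈ range m, (ex p + ey p + ez p) := by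
    intro g ex ey ez hg hez
    have := ident m ex ey ez (ez k0) W fun p hp =>
      ⟨(h1 p hp).2.1, (h1 p hp).2.2.2.1, (h1 p hp).2.2.2.2.1⟩
    have e2 : ∑ q ∈ range m, (ez q - ez k0) * tot (wq q) W = ∑ q ∈ range m, (ez q - ez k0) := by
      refine sum_congr rfl fun q hq => ?_
      rcases h2 q (Nat.zero_le _) (mem_range.1 hq) with e | e
      · rw [hez q e]; simp
      · rw [e, mul_one]
    rw [e2] at this
    simp only [V, Multiset.map_add, Multiset.sum_add, Multiset.map_map, Function.comp_def, hg]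
    rw [← tot_apply]
    change _ + ∑ θ ∈ range m, (ex θ + ey θ + ez k0) * (1 - tot (ld θ) W) +
      ∑ θ ∈ Ico 1 m, (ex θ + ey (θ - 1) + ez k0) * tot (ps θ) W = _
    have e3 : ∑ θ ∈ range m, (ex θ + ey θ + ez k0) * (1 - tot (ld θ) W) =
        ∑ θ ∈ range m, (ex θ + ey θ + ez k0) -
          ∑ θ ∈ range m, (ex θ + ey θ + ez k0) * tot (ld θ) W := by
      rw [← sum_sub_distrib]; exact sum_congr rfl fun _ _ => by ring
    have e4 : ∑ p ∈ range m, (ex p + ey p + ez p) =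
        ∑ θ ∈ range m, (ex θ + ey θ + ez k0) + ∑ q ∈ range m, (ez q - ez k0) := by
      rw [← sum_add_distrib]; exact sum_congr rfl fun _ _ => by ring
    rw [e3, e4]
    linarith
  refine ⟨z, z1, z2, fun σ => ?_, ?_⟩
  · have := z3 fun c => (c σ : ℚ)
    rw [key (fun c => (c σ : ℚ)) (fun p => if X h p = σ then 1 else 0) (fun p => if Y h p = σ then 1 else 0)
      (fun p => if Z η p = σ then 1 else 0) (fun _ _ _ => cfg_apply _ _ _ _)
      (fun q hq => by simp [Z, hq, hk0'])] at this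
    rw [← this]
    simp
  · have := z3 fun _ => 1
    rw [key (fun _ => 1) (fun _ => 1) (fun _ => 0) (fun _ => 0) (fun _ _ _ => by simp)
      (fun _ _ => rfl)] at this
    simpa using this

end Vale.Agent.P302
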