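import Vale.Agent.P302.Step

namespace Vale.Agent.P302

open Finset

def X (h : ℕ → ℚ) (p : ℕ) : ℚ := 10 / 26 + ∑ k ∈ range p, h k
def Y (h : ℕ → ℚ) (p : ℕ) : ℚ := 9 / 26 - ∑ k ∈ range (p + 1), h k
def Z (η : ℕ → ℚ) (p : ℕ) : ℚ := 7 / 26 + η p

section
variable {ρ : ℚ} {d m J : ℕ} {h η : ℕ → ℚ}

lemma psum_mono (G : Good ρ d 0 m h η J (1 / 100)) {p p' : ℕ} (h1 : p ≤ p') (h2 : p' ≤ m) :
    ∑ k ∈ range p, h k ≤ ∑ k ∈ range p', h k :=
  sum_le_sum_of_subset_of_nonneg (range_mono h1) fun k hk _ =>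
    (G.hpos k (Nat.zero_le _) (by rw [mem_range] at hk; omega)).le

lemma psum_bd (G : Good ρ d 0 m h η J (1 / 100)) {p : ℕ} (h2 : p ≤ m) :
    0 ≤ ∑ k ∈ range p, h k ∧ ∑ k ∈ range p, h k < 1 / 100 := by
  have h1 := psum_mono G (Nat.zero_le p) h2
  have h3 := psum_mono G h2 le_rfl
  have h4 := G.total
  rw [← range_eq_Ico] at h4
  simp only [range_zero, sum_empty] at h1
  exact ⟨h1, h3.trans_lt h4⟩

lemma lost {β : Type} [DecidableEq β] (m : ℕ) (f : ℕ → β) (Gd : Finset β)
    (h1 : ∀ b ∈ Gd, ((range m).filter fun p => f p = b).card = 1) :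
    ((range m).filter fun p => f p ∉ Gd).card + Gd.card = m := by
  have h2 : ((range m).filter fun p => f p ∈ Gd).card = Gd.card := by
    rw [card_eq_sum_card_fiberwise (s := (range m).filter fun p => f p ∈ Gd) (f := f) (t := Gd)
      (fun p hp => mem_coe.2 (mem_filter.1 (mem_coe.1 hp)).2)]
    rw [card_eq_sum_ones Gd]
    refine sum_congr rfl fun b hb => ?_
    rw [← h1 b hb]
    congr 1
    ext p
    simp only [mem_filter]
    constructor
    · exact fun hp => ⟨hp.1.1, hp.2⟩
    · exact fun hp => ⟨⟨hp.1, hp.2 ▸ hb⟩, hp.2⟩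
  have h3 := card_filter_add_card_filter_not (s := range m) (fun p => f p ∈ Gd)
  rw [card_range] at h3
  omega

theorem no_pack (K : ℕ) (G : Good ρ (25 * K + 2) 0 m h η (25 * K) (1 / 100))
    {β : Type} [Fintype β] [DecidableEq β] (hβ : Fintype.card β ≤ m + K) (fx fy fz : ℕ → β)
    (hb : ∀ b, ∑ p ∈ (range m).filter (fun p => fx p = b), X h p +
      ∑ p ∈ (range m).filter (fun p => fy p = b), Y h p +
      ∑ p ∈ (range m).filter (fun p => fz p = b), Z η p ≤ 1) : False := by
  let nx := fun b => ((range m).filter fun p => fx p = b).card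
  let ny := fun b => ((range m).filter fun p => fy p = b).card
  let nz := fun b => ((range m).filter fun p => fz p = b).card
  let Gd : Finset β := univ.filter fun b => nx b = 1 ∧ ny b = 1 ∧ nz b = 1
  have hw : ∀ b, 10 * nx b + 9 * ny b + 7 * nz b ≤ 25 + if b ∈ Gd then 1 else 0 := by
    intro b
    have a1 : (nx b : ℚ) * (10 / 26) ≤ ∑ p ∈ (range m).filter (fun p => fx p = b), X h p := by
      rw [← nsmul_eq_mul]
      refine card_nsmul_le_sum _ _ _ fun p hp => ?_
      have := (psum_bd G (p := p) (mem_range.1 (mem_filter.1 hp).1).le).1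
      unfold X; linarith
    have a2 : (ny b : ℚ) * (9 / 26 - 1 / 100) ≤
        ∑ p ∈ (range m).filter (fun p => fy p = b), Y h p := by
      rw [← nsmul_eq_mul]
      refine card_nsmul_le_sum _ _ _ fun p hp => ?_
      have := (psum_bd G (p := p + 1) (mem_range.1 (mem_filter.1 hp).1)).2
      unfold Y; linarith
    have a3 : (nz b : ℚ) * (7 / 26) ≤ ∑ p ∈ (range m).filter (fun p => fz p = b), Z η p := by
      rw [← nsmul_eq_mul]
      refine card_nsmul_le_sum _ _ _ fun p hp => ?_
      have := G.ηnn p (Nat.zero_le _) (mem_range.1 (mem_filter.1 hp).1)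
      unfold Z; linarith
    have a4 : (1000 * nx b + 874 * ny b + 700 * nz b : ℚ) ≤ 2600 := by
      have := hb b
      linarith
    have a5 : 1000 * nx b + 874 * ny b + 700 * nz b ≤ 2600 := by exact_mod_cast a4
    have a6 : b ∈ Gd ↔ nx b = 1 ∧ ny b = 1 ∧ nz b = 1 := by simp [Gd]
    split_ifs with hG
    · have := a6.1 hG; omega
    · rw [a6] at hG
      have b1 : nx b ≤ 2 := by omega
      have b2 : ny b ≤ 2 := by omega
      generalize nx b = u at *
      generalize ny b = v at *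
      generalize nz b = w at *
      interval_cases u <;> interval_cases v <;> omega
  have hsum : ∀ f : ℕ → β, ∑ b, ((range m).filter fun p => f p = b).card = m := by
    intro f
    rw [← card_eq_sum_card_fiberwise (f := f) (t := univ) (fun p _ => mem_univ _), card_range]
  have hG : m ≤ Gd.card + 25 * K := by
    have h1 := sum_le_sum fun b (_ : b ∈ (univ : Finset β)) => hw b
    rw [sum_add_distrib, sum_add_distrib, ← mul_sum, ← mul_sum, ← mul_sum, hsum, hsum, hsum,
      sum_add_distrib, sum_const, card_univ, smul_eq_mul, ← sum_filter, sum_const,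
      filter_mem_eq_inter, univ_inter, smul_eq_mul] at h1
    omega
  have hch : ∀ (f : ℕ → β) (b : β), ∃ p, ((range m).filter fun p => f p = b).card = 1 →
      ((range m).filter fun p => f p = b) = {p} := by
    intro f b
    by_cases hc : ((range m).filter fun p => f p = b).card = 1
    · obtain ⟨p, hp⟩ := card_eq_one.1 hc
      exact ⟨p, fun _ => hp⟩
    · exact ⟨0, fun hc' => absurd hc' hc⟩
  choose pf hpf using hch
  have hpf' : ∀ (f : ℕ → β) (b : β), ((range m).filter fun p => f p = b).card = 1 →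
      ∀ p, (p < m ∧ f p = b) ↔ p = pf f b := by
    intro f b hc p
    rw [← mem_singleton (a := pf f b), ← hpf f b hc, mem_filter, mem_range]
  have hGd : ∀ b ∈ Gd, nx b = 1 ∧ ny b = 1 ∧ nz b = 1 := fun b hb => (mem_filter.1 hb).2
  have hx : ∀ b ∈ Gd, pf fx b < m ∧ fx (pf fx b) = b := fun b hb =>
    (hpf' fx b (hGd b hb).1 _).2 rfl
  have hy : ∀ b ∈ Gd, pf fy b < m ∧ fy (pf fy b) = b := fun b hb =>
    (hpf' fy b (hGd b hb).2.1 _).2 rfl
  have hz : ∀ b ∈ Gd, pf fz b < m ∧ fz (pf fz b) = b := fun b hb =>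
    (hpf' fz b (hGd b hb).2.2 _).2 rfl
  have hfit : ∀ b ∈ Gd, ∑ k ∈ range (pf fx b), h k + η (pf fz b) ≤
      ∑ k ∈ range (pf fy b + 1), h k := by
    intro b hb'
    have := hb b
    rw [hpf fx b (hGd b hb').1, hpf fy b (hGd b hb').2.1, hpf fz b (hGd b hb').2.2,
      sum_singleton, sum_singleton, sum_singleton] at this
    unfold X Y Z at this
    linarith
  have ly := lost m fy Gd fun b hb => (hGd b hb).2.1
  have lz := lost m fz Gd fun b hb => (hGd b hb).2.2
  obtain ⟨θ, -, t2, t3⟩ := G.intg (fun q => pf fx (fz q)) (fun q => pf fy (fz q))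
    (((Ico 0 m).filter fun q => η q ≠ 0).filter fun q => fz q ∈ Gd) (filter_subset _ _) (by
      refine le_trans (card_le_card (t := (range m).filter fun p => fz p ∉ Gd) ?_) (by omega)
      intro q hq
      obtain ⟨h1, h2⟩ := mem_sdiff.1 hq
      refine mem_filter.2 ⟨mem_range.2 (mem_Ico.1 (mem_filter.1 h1).1).2, fun h3 => h2 ?_⟩
      exact mem_filter.2 ⟨h1, h3⟩) (by
      intro q hq
      obtain ⟨h1, h2⟩ := mem_filter.1 hq
      obtain ⟨h3, h4⟩ := mem_filter.1 h1
      have h5 := (mem_Ico.1 h3).2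
      have h6 : q = pf fz (fz q) := (hpf' fz _ (hGd _ h2).2.2 q).1 ⟨h5, rfl⟩
      have h7 := hfit _ h2
      rw [← h6] at h7
      have h8 : 0 < η q := lt_of_le_of_ne (G.ηnn q (Nat.zero_le _) h5) (Ne.symm h4)
      refine ⟨Nat.zero_le _, (hy _ h2).1, ?_⟩
      have h9 : pf fx (fz q) ≤ pf fy (fz q) + 1 := by
        by_contra hlt
        have := psum_mono G (p := pf fy (fz q) + 1) (p' := pf fx (fz q)) (by omega) (hx _ h2).1.le
        linarith
      unfold len
      rw [← Finset.Ico_add_one_right_eq_Icc, Finset.sum_Ico_eq_sub _ h9]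
      linarith)
  let A := Gd.filter fun b => pf fx b ≤ θ
  let B := Gd.filter fun b => pf fy b < θ
  have hA : A.card ≤ θ + 1 := by
    rw [← card_range (θ + 1)]
    refine card_le_card_of_injOn (pf fx) (fun b hb => ?_) fun b hb b' hb' e => ?_
    · have := (mem_filter.1 hb).2
      simp only [coe_range, Set.mem_Iio]; omega
    · rw [← (hx b (mem_filter.1 hb).1).2, e, (hx b' (mem_filter.1 hb').1).2]
  have hBA : B ⊆ A := by
    intro b hb'
    obtain ⟨h1, h2⟩ := mem_filter.1 hb'
    refine mem_filter.2 ⟨h1, ?_⟩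
    by_contra hlt
    have h3 := hfit b h1
    have h4 := psum_mono G (p := pf fy b + 1 + 1) (p' := pf fx b) (by omega) (hx _ h1).1.le
    rw [sum_range_succ] at h4
    have h5 := G.hpos (pf fy b + 1) (Nat.zero_le _) (by have := (hx _ h1).1; omega)
    have h6 := G.ηnn _ (Nat.zero_le _) (hz _ h1).1
    linarith
  have hB : θ ≤ B.card + 25 * K := by
    have h1 : ((range θ).filter fun p => fy p ∈ Gd).card ≤ B.card := by
      refine card_le_card_of_injOn fy (fun p hp => ?_) fun p hp p' hp' e => ?_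
      · obtain ⟨h1, h2⟩ := mem_filter.1 hp
        rw [mem_range] at h1
        have h6 : p = pf fy (fy p) := (hpf' fy _ (hGd _ h2).2.1 p).1 ⟨by omega, rfl⟩
        exact mem_filter.2 ⟨h2, h6 ▸ h1⟩
      · obtain ⟨h1, h2⟩ := mem_filter.1 hp
        obtain ⟨h1', h2'⟩ := mem_filter.1 hp'
        rw [mem_range] at h1 h1'
        rw [(hpf' fy _ (hGd _ h2).2.1 p).1 ⟨by omega, rfl⟩,
          (hpf' fy _ (hGd _ h2').2.1 p').1 ⟨by omega, rfl⟩, e]
    have h2 : ((range θ).filter fun p => fy p ∉ Gd).card ≤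
        ((range m).filter fun p => fy p ∉ Gd).card :=
      card_le_card (filter_subset_filter _ (range_mono t2.le))
    have h3 := card_filter_add_card_filter_not (s := range θ) (fun p => fy p ∈ Gd)
    rw [card_range] at h3
    omega
  have hC : ((((Ico 0 m).filter fun q => η q ≠ 0).filter fun q => fz q ∈ Gd).filter
      fun q => pf fx (fz q) ≤ θ ∧ θ ≤ pf fy (fz q)).card ≤ (A \ B).card := by
    refine card_le_card_of_injOn fz (fun q hq => ?_) fun q hq q' hq' e => ?_
    · obtain ⟨h1, h2⟩ := mem_filter.1 hq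
      obtain ⟨h3, h4⟩ := mem_filter.1 h1
      refine mem_sdiff.2 ⟨mem_filter.2 ⟨h4, h2.1⟩, fun h5 => ?_⟩
      have := (mem_filter.1 h5).2
      omega
    · obtain ⟨h1, -⟩ := mem_filter.1 hq
      obtain ⟨h3, h4⟩ := mem_filter.1 h1
      obtain ⟨h1', -⟩ := mem_filter.1 hq'
      obtain ⟨h3', h4'⟩ := mem_filter.1 h1'
      rw [(hpf' fz _ (hGd _ h4).2.2 q).1 ⟨(mem_Ico.1 (mem_filter.1 h3).1).2, rfl⟩,
        (hpf' fz _ (hGd _ h4').2.2 q').1 ⟨(mem_Ico.1 (mem_filter.1 h3').1).2, rfl⟩, e]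
  rw [card_sdiff_of_subset hBA] at hC
  have := t3.trans hC
  omega

end

end Vale.Agent.P302
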