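import Vale.Agent.P302.Gadget

namespace Vale.Agent.P302

open Finset

noncomputable def glue (s : ℕ → ℕ) (f : ℕ → ℕ → ℚ) (g : ℕ → ℚ) (θ : ℕ) : ℚ := by
  classical
  exact if hθ : ∃ i, s i < θ ∧ θ < s (i + 1) then f (Classical.choose hθ) θ else g θ

lemma cell_unique {s : ℕ → ℕ} (hs : StrictMono s) {i i' θ : ℕ} (h1 : s i < θ)
    (h2 : θ < s (i + 1)) (h3 : s i' < θ) (h4 : θ < s (i' + 1)) : i = i' := by
  have a1 : i < i' + 1 := hs.lt_iff_lt.1 (h1.trans h4)
  have a2 : i' < i + 1 := hs.lt_iff_lt.1 (h3.trans h2)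
  omega

lemma glue_cell {s : ℕ → ℕ} (hs : StrictMono s) (f : ℕ → ℕ → ℚ) (g : ℕ → ℚ) {i θ : ℕ}
    (h1 : s i < θ) (h2 : θ < s (i + 1)) : glue s f g θ = f i θ := by
  have hθ : ∃ i, s i < θ ∧ θ < s (i + 1) := ⟨i, h1, h2⟩
  unfold glue
  rw [dif_pos hθ]
  have := Classical.choose_spec hθ
  rw [cell_unique hs this.1 this.2 h1 h2]

lemma glue_atom {s : ℕ → ℕ} (hs : StrictMono s) (f : ℕ → ℕ → ℚ) (g : ℕ → ℚ) (i : ℕ) :
    glue s f g (s i) = g (s i) := by
  unfold glue
  rw [dif_neg]
  rintro ⟨i', h1, h2⟩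
  have a1 := hs.lt_iff_lt.1 h1
  have a2 := hs.lt_iff_lt.1 h2
  omega

lemma pos_cases {s : ℕ → ℕ} (D θ : ℕ) (h1 : s 0 ≤ θ) (h2 : θ < s D + 1) :
    (∃ i, i ≤ D ∧ θ = s i) ∨ ∃ i, i < D ∧ s i < θ ∧ θ < s (i + 1) := by
  induction D with
  | zero => exact Or.inl ⟨0, le_rfl, by omega⟩
  | succ D ih =>
    by_cases h : θ < s D + 1
    · rcases ih h with ⟨i, hi, e⟩ | ⟨i, hi, e⟩
      · exact Or.inl ⟨i, by omega, e⟩
      · exact Or.inr ⟨i, by omega, e⟩
    · by_cases h' : θ = s (D + 1)
      · exact Or.inl ⟨D + 1, le_rfl, h'⟩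
      · exact Or.inr ⟨D, by omega, by omega, by omega⟩

lemma sum_split {s : ℕ → ℕ} (hs : StrictMono s) (F : ℕ → ℚ) (D : ℕ) :
    ∑ θ ∈ Ico (s 0) (s D + 1), F θ =
      ∑ i ∈ range (D + 1), F (s i) + ∑ i ∈ range D, ∑ θ ∈ Ico (s i + 1) (s (i + 1)), F θ := by
  induction D with
  | zero => simp
  | succ D ih =>
    have h1 : s 0 ≤ s D := hs.monotone (Nat.zero_le _)
    have h2 : s D < s (D + 1) := hs (Nat.lt_succ_self _)
    rw [Finset.sum_Ico_succ_top (by omega),
      ← Finset.sum_Ico_consecutive F (m := s 0) (n := s D + 1) (k := s (D + 1)) (by omega)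
        (by omega), ih, Finset.sum_range_succ _ (D + 1), Finset.sum_range_succ (fun i =>
          ∑ θ ∈ Ico (s i + 1) (s (i + 1)), F θ) D]
    ring

lemma top_load {s : ℕ → ℕ} (hs : StrictMono s) (D θ : ℕ) :
    ((range D).filter fun i => s i ≤ θ ∧ θ ≤ s (i + 1)).card ≤ 2 := by
  have h : ((range D).filter fun i => s i ≤ θ ∧ θ ≤ s (i + 1)) ⊆
      ((range D).filter fun i => s i ≤ θ ∧ θ < s (i + 1)) ∪
      ((range D).filter fun i => s i < θ ∧ θ ≤ s (i + 1)) := by
    intro i hi
    have : s i < s (i + 1) := hs (Nat.lt_succ_self i)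
    simp only [mem_filter, mem_union] at hi ⊢
    obtain ⟨h1, h2, h3⟩ := hi
    by_cases h4 : θ < s (i + 1)
    · exact Or.inl ⟨h1, h2, h4⟩
    · exact Or.inr ⟨h1, by omega, h3⟩
  refine (card_le_card h).trans ((card_union_le _ _).trans ?_)
  have a1 : ((range D).filter fun i => s i ≤ θ ∧ θ < s (i + 1)).card ≤ 1 := by
    rw [card_le_one]
    intro i hi i' hi'
    simp only [mem_filter] at hi hi'
    have b1 : i < i' + 1 := hs.lt_iff_lt.1 (lt_of_le_of_lt hi.2.1 hi'.2.2)
    have b2 : i' < i + 1 := hs.lt_iff_lt.1 (lt_of_le_of_lt hi'.2.1 hi.2.2)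
    omega
  have a2 : ((range D).filter fun i => s i < θ ∧ θ ≤ s (i + 1)).card ≤ 1 := by
    rw [card_le_one]
    intro i hi i' hi'
    simp only [mem_filter] at hi hi'
    have b1 : i < i' + 1 := hs.lt_iff_lt.1 (lt_of_lt_of_le hi.2.1 hi'.2.2)
    have b2 : i' < i + 1 := hs.lt_iff_lt.1 (lt_of_lt_of_le hi'.2.1 hi.2.2)
    omega
  omega

section step

variable {ρ : ℚ} {d a J D j : ℕ} {s : ℕ → ℕ} {hs ηs : ℕ → ℕ → ℚ} {δs : ℕ → ℚ} {Js : ℕ → ℕ}
  {H : ℚ}

lemma len_cell (hm : StrictMono s) (f : ℕ → ℕ → ℚ) (g : ℕ → ℚ) {i lo hi : ℕ}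
    (h1 : s i + 1 ≤ lo) (h2 : hi < s (i + 1)) : len (glue s f g) lo hi = len (f i) lo hi := by
  unfold len
  refine sum_congr rfl fun k hk => ?_
  rw [mem_Icc] at hk
  exact glue_cell hm f g (by omega) (by omega)

lemma frac_step (hm : StrictMono s) (hH : 0 < H) (hD : 0 < D) (hj : j ≤ D)
    (hρ : (j : ℚ) / D ≤ ρ)
    (G : ∀ i, Good ρ d (s i + 1) (s (i + 1)) (hs i) (ηs i) (Js i) (δs i)) :
    Frac (s 0) (s D + 1) (glue s hs fun _ => H)
      (glue s ηs fun θ => if θ < s j then 2 * H else 0) (2 * ((d + 1 : ℕ) : ℚ) * ρ) := by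
  choose W hW using fun i => (G i).frac
  have hDq : (0 : ℚ) < D := by exact_mod_cast hD
  let T : Multiset Pc := ∑ k ∈ range j, ∑ i ∈ range D, {⟨s k, s i, s (i + 1), 1 / D⟩}
  have hhpos : ∀ θ, s 0 ≤ θ → θ < s D + 1 → 0 < glue s hs (fun _ => H) θ := by
    intro θ h1 h2
    rcases pos_cases D θ h1 h2 with ⟨i, -, rfl⟩ | ⟨i, -, h3, h4⟩
    · rw [glue_atom hm]; exact hH
    · rw [glue_cell hm _ _ h3 h4]; exact (G i).hpos θ h3 h4
  refine ⟨T + ∑ i ∈ range D, W i, ?_, ?_, ?_⟩
  · intro p hp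
    rcases Multiset.mem_add.1 hp with hp | hp
    · simp only [T, Multiset.mem_sum, mem_range, Multiset.mem_singleton] at hp
      obtain ⟨k, hk, i, hi, rfl⟩ := hp
      have b1 : s 0 ≤ s k := hm.monotone (Nat.zero_le _)
      have b2 : s k ≤ s D := hm.monotone (by omega)
      have b3 : s 0 ≤ s i := hm.monotone (Nat.zero_le _)
      have b4 : s i < s (i + 1) := hm (Nat.lt_succ_self _)
      have b5 : s (i + 1) ≤ s D := hm.monotone (by omega)
      refine ⟨b1, by show s k < _; omega, b3, b4.le, by show s (i + 1) < _; omega,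
        by positivity, ?_⟩
      show glue _ _ _ (s k) ≤ len _ (s i) (s (i + 1))
      rw [glue_atom hm, if_pos (hm hk)]
      unfold len
      have : ({s i, s (i + 1)} : Finset ℕ) ⊆ Icc (s i) (s (i + 1)) := by
        intro x hx
        simp only [mem_insert, mem_singleton, mem_Icc] at hx ⊢
        omega
      refine le_trans ?_ (sum_le_sum_of_subset_of_nonneg this fun x hx _ => ?_)
      · rw [sum_pair b4.ne, glue_atom hm, glue_atom hm]; linarith
      · rw [mem_Icc] at hx
        exact (hhpos x (by omega) (by omega)).le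
    · simp only [Multiset.mem_sum, mem_range] at hp
      obtain ⟨i, hi, hp⟩ := hp
      obtain ⟨c1, c2, c3, c4, c5, c6, c7⟩ := (hW i).1 p hp
      have b3 : s 0 ≤ s i := hm.monotone (Nat.zero_le _)
      have b5 : s (i + 1) ≤ s D := hm.monotone (by omega)
      refine ⟨by omega, by omega, by omega, c4, by omega, c6, ?_⟩
      rw [glue_cell hm _ _ (i := i) (by omega) c2, len_cell hm _ _ c3 c5]
      exact c7
  · intro q h1 h2
    rw [map_add, map_sum, map_sum]
    rcases pos_cases D q h1 h2 with ⟨i, -, rfl⟩ | ⟨i, hi, h3, h4⟩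
    · rw [glue_atom hm]
      by_cases hij : s i < s j
      · right
        have hij' : i < j := hm.lt_iff_lt.1 hij
        have e1 : ∑ i' ∈ range D, tot (wq (s i)) (W i') = 0 := by
          refine sum_eq_zero fun i' _ => tot_zero_of _ _ fun p hp => ?_
          obtain ⟨c1, c2, -⟩ := (hW i').1 p hp
          unfold wq
          rw [if_neg]
          intro e
          rw [e] at c1 c2
          have a1 := hm.lt_iff_lt.1 (show s i' < s i by omega)
          have a2 := hm.lt_iff_lt.1 c2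
          omega
        rw [e1, add_zero, sum_eq_single_of_mem i (mem_range.2 hij')]
        · rw [map_sum]
          simp only [tot_single, wq, if_true, sum_const, card_range, nsmul_eq_mul]
          field_simp
        · intro k _ hk
          rw [map_sum]
          refine sum_eq_zero fun i' _ => ?_
          rw [tot_single, wq, if_neg]
          exact fun e => hk (hm.injective e)
      · left; rw [if_neg hij]
    · rw [glue_cell hm _ _ h3 h4]
      refine ((hW i).2.1 q h3 h4).imp id fun h5 => ?_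
      have e1 : ∑ k ∈ range j, tot (wq q)
          (∑ i ∈ range D, ({⟨s k, s i, s (i + 1), 1 / D⟩} : Multiset Pc)) = 0 := by
        refine sum_eq_zero fun k _ => ?_
        rw [map_sum]
        refine sum_eq_zero fun i' _ => ?_
        rw [tot_single, wq, if_neg]
        intro e
        have e' : s k = q := e
        rw [← e'] at h3 h4
        have a1 := hm.lt_iff_lt.1 h3
        have a2 := hm.lt_iff_lt.1 h4
        omega
      rw [e1, zero_add, sum_eq_single_of_mem i (mem_range.2 hi), h5]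
      intro i' _ hi'
      refine tot_zero_of _ _ fun p hp => ?_
      obtain ⟨c1, c2, -⟩ := (hW i').1 p hp
      unfold wq
      rw [if_neg]
      intro e
      rw [e] at c1 c2
      exact hi' (cell_unique hm (by omega) c2 h3 h4)
  · intro θ
    rw [map_add, map_sum, map_sum]
    have hρ0 : 0 ≤ ρ := le_trans (by positivity) hρ
    have e1 : ∑ k ∈ range j, tot (ld θ)
        (∑ i ∈ range D, ({⟨s k, s i, s (i + 1), 1 / D⟩} : Multiset Pc)) ≤ 2 * ρ := by
      have : ∀ k ∈ range j, tot (ld θ)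
          (∑ i ∈ range D, ({⟨s k, s i, s (i + 1), 1 / D⟩} : Multiset Pc)) ≤ 2 / D := by
        intro k _
        rw [map_sum]
        simp only [tot_single, ld]
        rw [← sum_filter, sum_const, nsmul_eq_mul]
        have : ((((range D).filter fun i => s i ≤ θ ∧ θ ≤ s (i + 1)).card : ℕ) : ℚ) ≤ 2 := by
          exact_mod_cast top_load hm D θ
        calc _ ≤ 2 * (1 / (D : ℚ)) := by gcongr
          _ = _ := by ring
      refine (sum_le_card_nsmul _ _ _ this).trans ?_
      rw [card_range, nsmul_eq_mul]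
      calc (j : ℚ) * (2 / D) = 2 * (j / D) := by ring
        _ ≤ _ := by linarith
    have e2 : ∑ i ∈ range D, tot (ld θ) (W i) ≤ 2 * d * ρ := by
      have z : ∀ i, ¬ (s i < θ ∧ θ < s (i + 1)) → tot (ld θ) (W i) = 0 := by
        intro i hi
        refine tot_zero_of _ _ fun p hp => ?_
        obtain ⟨-, -, c3, -, c5, -⟩ := (hW i).1 p hp
        unfold ld
        rw [if_neg]
        omega
      by_cases hex : ∃ i ∈ range D, s i < θ ∧ θ < s (i + 1)
      · obtain ⟨i, hi, h3, h4⟩ := hex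
        rw [sum_eq_single_of_mem i hi]
        · exact (hW i).2.2 θ
        · intro i' _ hi'
          exact z i' fun h => hi' (cell_unique hm h.1 h.2 h3 h4)
      · rw [sum_eq_zero fun i hi => z i fun h => hex ⟨i, hi, h⟩]
        positivity
    push_cast
    linarith

lemma intg_step (hm : StrictMono s) (hH : 0 < H) (hD : 0 < D) (hj : j ≤ D) (hJ : J < j)
    (G : ∀ i, Good ρ d (s i + 1) (s (i + 1)) (hs i) (ηs i)
      (J + d * (D + 1) + d * (s i - s 0)) (δs i))
    (hδ : ∀ i, δs i ≤ H / D)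
    (hsc : ∀ i i', i' < i → ∀ q, s i' + 1 ≤ q → q < s (i' + 1) → ηs i' q ≠ 0 →
      δs i ≤ ηs i' q) :
    Intg (s 0) (s D + 1) (glue s hs fun _ => H)
      (glue s ηs fun θ => if θ < s j then 2 * H else 0) J (d + 1) := by
  classical
  intro lo hi P hP hcard hval
  by_contra hcon
  push Not at hcon
  have hDq : (0 : ℚ) < D := by exact_mod_cast hD
  set h := glue s hs fun _ => H with hh
  set η := glue s ηs fun θ => if θ < s j then 2 * H else 0 with hη
  -- a top job that is placed
  obtain ⟨k, hk, hkP⟩ : ∃ k, k < j ∧ s k ∈ P := by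
    by_contra hno
    push Not at hno
    have : (range j).image s ⊆ (Ico (s 0) (s D + 1)).filter (fun q => η q ≠ 0) \ P := by
      intro x hx
      obtain ⟨k, hk, rfl⟩ := mem_image.1 hx
      rw [mem_range] at hk
      have b1 : s 0 ≤ s k := hm.monotone (Nat.zero_le _)
      have b2 : s k ≤ s D := hm.monotone (by omega)
      refine mem_sdiff.2 ⟨mem_filter.2 ⟨mem_Ico.2 ⟨b1, by omega⟩, ?_⟩, hno k hk⟩
      rw [hη, glue_atom hm, if_pos (hm hk)]
      positivity
    have := card_le_card this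
    rw [card_image_of_injective _ hm.injective, card_range] at this
    omega
  obtain ⟨v1, v2, v3⟩ := hval _ hkP
  rw [hη, glue_atom hm, if_pos (hm hk)] at v3
  -- it covers a whole cell
  obtain ⟨i, hi1, hi2, hi3⟩ : ∃ i, i < D ∧ lo (s k) ≤ s i ∧ s (i + 1) ≤ hi (s k) := by
    have e : len h (lo (s k)) (hi (s k)) = ∑ θ ∈ Ico (s 0) (s D + 1),
        if lo (s k) ≤ θ ∧ θ ≤ hi (s k) then h θ else 0 := by
      rw [← sum_filter]
      unfold len
      refine sum_congr ?_ fun _ _ => rfl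
      ext x
      simp only [mem_Icc, mem_filter, mem_Ico]
      omega
    rw [e, sum_split hm] at v3
    have e2 : ∑ i ∈ range D, ∑ θ ∈ Ico (s i + 1) (s (i + 1)),
        (if lo (s k) ≤ θ ∧ θ ≤ hi (s k) then h θ else 0) < H := by
      calc _ < ∑ i ∈ range D, H / D := by
            refine sum_lt_sum_of_nonempty ⟨0, mem_range.2 hD⟩ fun i _ => ?_
            refine lt_of_le_of_lt (sum_le_sum fun θ hθ => ?_) ((G i).total.trans_le (hδ i))
            rw [mem_Ico] at hθ
            rw [hh, glue_cell hm _ _ (i := i) (by omega) hθ.2]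
            split_ifs
            · exact le_rfl
            · exact ((G i).hpos θ hθ.1 hθ.2).le
        _ = H := by rw [sum_const, card_range, nsmul_eq_mul]; field_simp
    have e3 : ∑ i ∈ range (D + 1), (if lo (s k) ≤ s i ∧ s i ≤ hi (s k) then h (s i) else 0) =
        (((range (D + 1)).filter fun i => lo (s k) ≤ s i ∧ s i ≤ hi (s k)).card : ℚ) * H := by
      rw [← sum_filter, sum_congr rfl (g := fun _ => H) fun i _ => by rw [hh, glue_atom hm],
        sum_const, nsmul_eq_mul]
    rw [e3] at v3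
    have e4 : (1 : ℚ) <
        (((range (D + 1)).filter fun i => lo (s k) ≤ s i ∧ s i ≤ hi (s k)).card : ℚ) := by
      by_contra hle
      push Not at hle
      nlinarith
    have e5 : 1 < ((range (D + 1)).filter fun i => lo (s k) ≤ s i ∧ s i ≤ hi (s k)).card := by
      exact_mod_cast e4
    obtain ⟨i, hi, i', hi', hne⟩ := one_lt_card.1 e5
    simp only [mem_filter, mem_range] at hi hi'
    rcases lt_or_gt_of_ne hne with hlt | hlt
    · exact ⟨i, by omega, hi.2.1, (hm.monotone (by omega)).trans hi'.2.2⟩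
    · exact ⟨i', by omega, hi'.2.1, (hm.monotone (by omega)).trans hi.2.2⟩
  have b3 : s 0 ≤ s i := hm.monotone (Nat.zero_le _)
  have b4 : s i < s (i + 1) := hm (Nat.lt_succ_self _)
  have b5 : s (i + 1) ≤ s D := hm.monotone (by omega)
  let Θ : Finset ℕ := (range (D + 1)).image s ∪ Ico (s 0) (s i)
  have hΘ : ∀ θ ∈ Θ, s 0 ≤ θ ∧ θ < s D + 1 := by
    intro θ hθ
    rcases mem_union.1 hθ with hθ | hθ
    · obtain ⟨i', hi', rfl⟩ := mem_image.1 hθ
      rw [mem_range] at hi'
      have : s i' ≤ s D := hm.monotone (by omega)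
      exact ⟨hm.monotone (Nat.zero_le _), by omega⟩
    · rw [mem_Ico] at hθ; omega
  let E : Finset ℕ := Θ.biUnion fun θ => P.filter fun q => lo q ≤ θ ∧ θ ≤ hi q
  have hE : E.card ≤ d * (D + 1) + d * (s i - s 0) := by
    have h1 : E.card ≤ Θ.card * d :=
      card_biUnion_le_card_mul _ _ _ fun θ hθ =>
        Nat.lt_succ_iff.1 (hcon θ (hΘ θ hθ).1 (hΘ θ hθ).2)
    have h2 : Θ.card ≤ (D + 1) + (s i - s 0) := by
      refine (card_union_le _ _).trans ?_
      rw [Nat.card_Ico]
      have := card_image_le (s := range (D + 1)) (f := s)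
      rw [card_range] at this
      omega
    calc E.card ≤ ((D + 1) + (s i - s 0)) * d := h1.trans (Nat.mul_le_mul_right _ h2)
      _ = _ := by ring
  let P' : Finset ℕ := (P.filter fun q => s i + 1 ≤ q ∧ q < s (i + 1)) \ E
  have hηc : ∀ q, s i + 1 ≤ q → q < s (i + 1) → η q = ηs i q := fun q h1 h2 =>
    glue_cell hm _ _ (by omega) h2
  obtain ⟨θ, t1, t2, t3⟩ := (G i).intg lo hi P' (by
      intro q hq
      have hq1 := mem_filter.1 (mem_sdiff.1 hq).1
      have := (mem_filter.1 (hP hq1.1)).2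
      rw [hηc q hq1.2.1 hq1.2.2] at this
      exact mem_filter.2 ⟨mem_Ico.2 hq1.2, this⟩) (by
      have : (Ico (s i + 1) (s (i + 1))).filter (fun q => ηs i q ≠ 0) \ P' ⊆
          ((Ico (s 0) (s D + 1)).filter (fun q => η q ≠ 0) \ P) ∪ E := by
        intro q hq
        obtain ⟨hq1, hq2⟩ := mem_sdiff.1 hq
        obtain ⟨hq3, hq4⟩ := mem_filter.1 hq1
        rw [mem_Ico] at hq3
        by_cases hqE : q ∈ E
        · exact mem_union_right _ hqE
        · refine mem_union_left _ (mem_sdiff.2 ⟨mem_filter.2 ⟨mem_Ico.2 ⟨by omega, by omega⟩, ?_⟩,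
            fun hqP => hq2 (mem_sdiff.2 ⟨mem_filter.2 ⟨hqP, hq3⟩, hqE⟩)⟩)
          rw [hηc q hq3.1 hq3.2]; exact hq4
      have := (card_le_card this).trans (card_union_le _ _)
      omega) (by
      intro q hq
      obtain ⟨hq1, hqE⟩ := mem_sdiff.1 hq
      obtain ⟨hqP, hq2, hq3⟩ := mem_filter.1 hq1
      obtain ⟨w1, w2, w3⟩ := hval q hqP
      have hne : η q ≠ 0 := (mem_filter.1 (hP hqP)).2
      rw [hηc q hq2 hq3] at hne w3
      have hpos : 0 < ηs i q := lt_of_le_of_ne ((G i).ηnn q hq2 hq3) (Ne.symm hne)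
      have hlh : lo q ≤ hi q := by
        by_contra hlt
        unfold len at w3
        rw [Icc_eq_empty hlt, sum_empty] at w3
        linarith
      have hno : ∀ θ ∈ Θ, ¬ (lo q ≤ θ ∧ θ ≤ hi q) := fun θ hθ hc =>
        hqE (mem_biUnion.2 ⟨θ, hθ, mem_filter.2 ⟨hqP, hc⟩⟩)
      have hat : ∀ i', i' ≤ D → ¬ (lo q ≤ s i' ∧ s i' ≤ hi q) := fun i' hi' =>
        hno _ (mem_union_left _ (mem_image_of_mem s (mem_range.2 (by omega))))
      have hlo : s i ≤ lo q := by
        by_contra hlt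
        exact hno (lo q) (mem_union_right _ (mem_Ico.2 ⟨w1, by omega⟩)) ⟨le_rfl, hlh⟩
      rcases pos_cases D (lo q) w1 (by omega) with ⟨i', hi', e⟩ | ⟨i', hi', c1, c2⟩
      · exact absurd ⟨e.le, e ▸ hlh⟩ (hat i' hi')
      · have c3 : hi q < s (i' + 1) := by
          by_contra hlt
          exact hat (i' + 1) hi' ⟨c2.le, by omega⟩
        rw [hh, len_cell hm _ _ (i := i') (by omega) c3] at w3
        have c4 : i < i' + 1 := hm.lt_iff_lt.1 (lt_of_le_of_lt hlo c2)
        rcases Nat.lt_succ_iff_lt_or_eq.1 c4 with c5 | rfl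
        · exfalso
          have c6 := hsc i' i c5 q hq2 hq3 hne
          have c7 : len (hs i') (lo q) (hi q) ≤ ∑ k ∈ Ico (s i' + 1) (s (i' + 1)), hs i' k := by
            unfold len
            refine sum_le_sum_of_subset_of_nonneg (fun x hx => ?_) fun x hx _ => ?_
            · rw [mem_Icc] at hx; rw [mem_Ico]; omega
            · rw [mem_Ico] at hx; exact ((G i').hpos x hx.1 hx.2).le
          have := (G i').total
          linarith
        · exact ⟨by omega, c3, w3⟩)
  have h1 := hcon θ (by omega) (by omega)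
  have h2 : insert (s k) (P'.filter fun q => lo q ≤ θ ∧ θ ≤ hi q) ⊆
      P.filter fun q => lo q ≤ θ ∧ θ ≤ hi q := by
    intro q hq
    rcases mem_insert.1 hq with rfl | hq
    · exact mem_filter.2 ⟨hkP, by omega, by omega⟩
    · obtain ⟨hq1, hq2⟩ := mem_filter.1 hq
      exact mem_filter.2 ⟨(mem_filter.1 (mem_sdiff.1 hq1).1).1, hq2⟩
  have h3 := card_le_card h2
  rw [card_insert_of_notMem] at h3
  · omega
  · intro hq
    have := (mem_filter.1 (mem_sdiff.1 (mem_filter.1 hq).1).1).2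
    have a1 := hm.lt_iff_lt.1 (show s i < s k by omega)
    have a2 := hm.lt_iff_lt.1 this.2
    omega

end step

lemma all_succ (R : ℕ) (hR : 0 < R) (d : ℕ) (A : All (1 / R) d) : All (1 / R) (d + 1) := by
  intro a J δ hδ
  set j := J + 1 with hj
  set D := j * R with hDdef
  have hjD : j ≤ D := Nat.le_mul_of_pos_right _ hR
  have hD : 0 < D := by omega
  have hDq : (0 : ℚ) < D := by exact_mod_cast hD
  set H : ℚ := δ / (D + 2) with hHdef
  have hH : 0 < H := by positivity
  have hHδ : (D + 2) * H = δ := by rw [hHdef]; field_simp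
  have hD1 : (1 : ℚ) ≤ D := by exact_mod_cast hD
  obtain ⟨s, hs, ηs, δs, h0, h1, G, h3⟩ :=
    cells (1 / R) d A a (J + d * (D + 1)) (H / D) (by positivity)
  have hm : StrictMono s := strictMono_nat_of_lt_succ fun i => by have := (G i).lt; omega
  subst h0
  have hHD : H / D ≤ H := div_le_self hH.le hD1
  refine ⟨s D + 1, glue s hs fun _ => H, glue s ηs fun θ => if θ < s j then 2 * H else 0,
    ?_, ?_, ?_, ?_, ?_, ?_, ?_, ?_⟩
  · have : s 0 ≤ s D := hm.monotone (Nat.zero_le _)
    omega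
  · intro θ h1 h2
    rcases pos_cases D θ h1 h2 with ⟨i, -, rfl⟩ | ⟨i, -, h3, h4⟩
    · rw [glue_atom hm]; exact hH
    · rw [glue_cell hm _ _ h3 h4]; exact (G i).hpos θ h3 h4
  · intro θ h1 h2
    rcases pos_cases D θ h1 h2 with ⟨i, -, rfl⟩ | ⟨i, -, h3, h4⟩
    · rw [glue_atom hm]; split_ifs <;> positivity
    · rw [glue_cell hm _ _ h3 h4]; exact (G i).ηnn θ h3 h4
  · intro θ c1 c2
    rcases pos_cases D θ c1 c2 with ⟨i, -, rfl⟩ | ⟨i, -, h3, h4⟩
    · rw [glue_atom hm]; split_ifs
      · nlinarith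
      · exact hδ
    · rw [glue_cell hm _ _ h3 h4]
      have := (G i).ηlt θ h3 h4
      have := h1 i
      nlinarith
  · rw [sum_split hm, sum_congr rfl (g := fun _ => H) fun i _ => by rw [glue_atom hm],
      sum_const, card_range, nsmul_eq_mul]
    have e2 : ∑ i ∈ range D, ∑ θ ∈ Ico (s i + 1) (s (i + 1)),
        (glue s hs fun _ => H) θ < H := by
      calc _ < ∑ i ∈ range D, H / D := by
            refine sum_lt_sum_of_nonempty ⟨0, mem_range.2 hD⟩ fun i _ => ?_
            refine lt_of_le_of_lt (sum_le_sum fun θ hθ => ?_) ((G i).total.trans_le (h1 i))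
            rw [mem_Ico] at hθ
            rw [glue_cell hm _ _ (i := i) (by omega) hθ.2]
        _ = H := by rw [sum_const, card_range, nsmul_eq_mul]; field_simp
    push_cast
    linarith
  · refine ⟨s D, hm.monotone (Nat.zero_le _), by omega, ?_⟩
    rw [glue_atom hm, if_neg]
    have : s j ≤ s D := hm.monotone hjD
    omega
  · refine frac_step hm hH hD hjD ?_ G
    rw [hDdef]
    push_cast
    have : (0 : ℚ) < R := by exact_mod_cast hR
    have : (0 : ℚ) < j := by positivity
    apply le_of_eq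
    field_simp
  · exact intg_step hm hH hD hjD (by omega) G h1 h3

theorem all_all (R : ℕ) (hR : 0 < R) (d : ℕ) : All (1 / R) d := by
  induction d with
  | zero => exact all_zero _
  | succ d ih => exact all_succ R hR d ih

end Vale.Agent.P302
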